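import Vale.Agent.P275.H490.Defs
import Vale.Agent.P275.H341.Ps

/-! Row LD: the logarithmic derivative to second order. -/

namespace Vale.Agent.P275.H455

open scoped BigOperators Topology
open Filter Vale.Agent.P275.H341 Vale.Agent.P275.H490

theorem t1_tendsto {f : ℕ → ℂ} {N : ℕ} {a b : ℂ} (h : T1 f N a b) :
    Tendsto (fun q : ℕ => f q / (q : ℂ) ^ N) atTop (𝓝 a) := by
  have h1 : Tendsto (fun q : ℕ => ((q : ℂ))⁻¹) atTop (𝓝 0) := tendsto_inv_atTop_nhds_zero_nat
  have h2 := Tendsto.mul h h1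
  have h3 : (fun q : ℕ => (f q / (q : ℂ) ^ N - a) * q * ((q : ℂ))⁻¹) =ᶠ[atTop]
      fun q : ℕ => f q / (q : ℂ) ^ N - a := by
    filter_upwards [eventually_gt_atTop 0] with q hq
    have hq' : (q : ℂ) ≠ 0 := by exact_mod_cast hq.ne'
    rw [mul_assoc, mul_inv_cancel₀ hq', mul_one]
  have h4 := h2.congr' h3
  rw [mul_zero] at h4
  simpa using h4.add_const a

theorem t1_add {f g : ℕ → ℂ} {N : ℕ} {a b a' b' : ℂ} (h : T1 f N a b) (h' : T1 g N a' b') :
    T1 (fun q => f q + g q) N (a + a') (b + b') := by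
  have h1 := Tendsto.add h h'
  refine h1.congr fun q => ?_
  ring

theorem t1_const_mul {f : ℕ → ℂ} {N : ℕ} {a b : ℂ} (h : T1 f N a b) (c : ℂ) :
    T1 (fun q => c * f q) N (c * a) (c * b) := by
  have h1 := Tendsto.const_mul c h
  refine h1.congr fun q => ?_
  ring

theorem t1_mul {f g : ℕ → ℂ} {N M : ℕ} {a b a' b' : ℂ} (h : T1 f N a b) (h' : T1 g M a' b') :
    T1 (fun q => f q * g q) (N + M) (a * a') (b * a' + a * b') := by
  have h1 := (Tendsto.mul h (t1_tendsto h')).add (Tendsto.const_mul a h')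
  refine h1.congr fun q => ?_
  rw [pow_add, mul_div_mul_comm]
  ring

theorem t1_lift {f : ℕ → ℂ} {N N' : ℕ} {a b : ℂ} (h : T1 f N a b) (hN : N + 2 ≤ N') :
    T1 f N' 0 0 := by
  obtain ⟨r, rfl⟩ := Nat.exists_eq_add_of_le hN
  have h1 : Tendsto (fun q : ℕ => ((q : ℂ))⁻¹) atTop (𝓝 0) := tendsto_inv_atTop_nhds_zero_nat
  have h2 : Tendsto (fun q : ℕ => ((q : ℂ))⁻¹ ^ (r + 1)) atTop (𝓝 (0 ^ (r + 1))) := h1.pow (r + 1)
  have h3 := (t1_tendsto h).mul h2
  rw [zero_pow (Nat.succ_ne_zero r), mul_zero] at h3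
  refine h3.congr' ?_
  filter_upwards [eventually_gt_atTop 0] with q hq
  have hq' : (q : ℂ) ≠ 0 := by exact_mod_cast hq.ne'
  rw [sub_zero, inv_pow, show N + 2 + r = N + (r + 1) + 1 by ring, pow_succ (q : ℂ) (N + (r + 1)),
    pow_add]
  field_simp
  ring

theorem t1_sum {ι : Type} (s : Finset ι) {f : ι → ℕ → ℂ} {N : ℕ}
    (h : ∀ i ∈ s, T1 (f i) N 0 0) : T1 (fun q => ∑ i ∈ s, f i q) N 0 0 := by
  classical
  induction s using Finset.induction_on with
  | empty =>
    have : Tendsto (fun _ : ℕ => (0 : ℂ)) atTop (𝓝 0) := tendsto_const_nhds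
    refine this.congr fun q => ?_
    simp
  | insert i s hi ih =>
    have h1 := t1_add (h i (Finset.mem_insert_self _ _))
      (ih fun j hj => h j (Finset.mem_insert_of_mem hj))
    rw [add_zero] at h1
    simpa only [Finset.sum_insert hi] using h1

theorem rowLD : RowLD := by
  intro a M b hM h0 ha K
  induction K using Nat.strong_induction_on with
  | _ K ih =>
    intro hK
    have h1 : ∀ q, ld (a q) K = K * a q K + (-1) *
        ∑ p ∈ (Finset.HasAntidiagonal.antidiagonal K).filter (fun p => 1 ≤ p.1 ∧ 1 ≤ p.2),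
          ld (a q) p.1 * a q p.2 := by
      intro q
      have e1 := ld_rec (h0 q) K
      have e2 : ∑ p ∈ Finset.HasAntidiagonal.antidiagonal K, ld (a q) p.1 * a q p.2 =
          ld (a q) K + ∑ p ∈ (Finset.HasAntidiagonal.antidiagonal K).filter
            (fun p => 1 ≤ p.1 ∧ 1 ≤ p.2), ld (a q) p.1 * a q p.2 := by
        rw [← Finset.sum_filter_add_sum_filter_not _ (fun p : ℕ × ℕ => 1 ≤ p.1 ∧ 1 ≤ p.2), add_comm]
        congr 1
        have e3 : (K, 0) ∈ (Finset.HasAntidiagonal.antidiagonal K).filter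
            (fun p => ¬ (1 ≤ p.1 ∧ 1 ≤ p.2)) := by
          simp
        rw [Finset.sum_eq_single_of_mem (K, 0) e3]
        · simp only [h0, mul_one]
        · rintro ⟨i, j⟩ hij hne
          rw [Finset.mem_filter, Finset.HasAntidiagonal.mem_antidiagonal] at hij
          obtain ⟨h2, h3⟩ := hij
          simp only at h2 h3
          have h4 : i = 0 := by
            by_contra h5
            have h6 : j = 0 := by omega
            apply hne
            rw [h6] at h2 ⊢
            rw [← h2, add_zero]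
          rw [h4, ld_zero (h0 q), zero_mul]
      rw [e2] at e1
      rw [← e1]
      ring
    have h2 : T1 (fun q => ∑ p ∈ (Finset.HasAntidiagonal.antidiagonal K).filter
        (fun p => 1 ≤ p.1 ∧ 1 ≤ p.2), ld (a q) p.1 * a q p.2) (M * (K * (K + 1))) 0 0 := by
      refine t1_sum _ ?_
      rintro ⟨i, j⟩ hij
      rw [Finset.mem_filter, Finset.HasAntidiagonal.mem_antidiagonal] at hij
      obtain ⟨h3, h4, h5⟩ := hij
      simp only at h3 h4 h5
      have h6 := t1_mul (ih i (by omega) h4) (ha j h5)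
      refine t1_lift h6 ?_
      subst h3
      have h7 : 1 ≤ M * (i * j) := Nat.mul_pos hM (Nat.mul_pos h4 h5)
      nlinarith
    have h3 := t1_add (t1_const_mul (ha K hK) (K : ℂ)) (t1_const_mul h2 (-1))
    rw [mul_one, mul_zero, add_zero, add_zero] at h3
    have h4 : (fun q => ld (a q) K) = fun q => (K : ℂ) * a q K + (-1) *
        ∑ p ∈ (Finset.HasAntidiagonal.antidiagonal K).filter (fun p => 1 ≤ p.1 ∧ 1 ≤ p.2),
          ld (a q) p.1 * a q p.2 := funext h1
    rw [h4]
    exact h3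

end Vale.Agent.P275.H455
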